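import Mathlib

/-!
# P226: the regrouping inequality, algebraic part

For an antisymmetric array `w i j` of vectors of a real inner product space, with row sums
`z i = ∑ a, w i a`, a bound `C` for every regrouped configuration (indexed by three distinct
indices) gives a bound for `∑ m, ‖z m‖ ^ 2` with the factor
`n ^ 2 (n - 1) / (n ^ 2 (n - 1) - 2 n + 4)`.  The proof sums the hypothesis over all triples of
distinct indices and uses `2 ∑ ‖z m‖ ^ 2 ≤ n ∑ ‖w i j‖ ^ 2`.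
-/

namespace Vale.Agent.Lib.P226.H45

/-- Summing over the indices different from two given distinct indices. -/
theorem sum_ite_ne_ne {n : ℕ} {i j : Fin n} (hij : i ≠ j) (f : Fin n → ℝ) :
    ∑ l, (if l ≠ i ∧ l ≠ j then f l else 0) = ∑ l, f l - f i - f j := by
  have h : ∀ l, f l = (if l ≠ i ∧ l ≠ j then f l else 0) + (if l = i then f l else 0)
      + (if l = j then f l else 0) := by
    intro l
    by_cases h1 : l = i
    · subst h1
      simp [hij]
    · by_cases h2 : l = j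
      · subst h2
        simp [h1]
      · simp [h1, h2]
  have hs : ∑ l, f l = ∑ l, ((if l ≠ i ∧ l ≠ j then f l else 0) + (if l = i then f l else 0)
      + (if l = j then f l else 0)) := Finset.sum_congr rfl (fun l _ => h l)
  rw [Finset.sum_add_distrib, Finset.sum_add_distrib, Finset.sum_ite_eq', Finset.sum_ite_eq'] at hs
  simp only [Finset.mem_univ, if_true] at hs
  linarith

/-- Summing over the indices different from a given one. -/
theorem sum_ite_ne {n : ℕ} (i : Fin n) (g : Fin n → ℝ) :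
    ∑ j, (if i ≠ j then g j else 0) = ∑ j, g j - g i := by
  have h : ∀ j, g j = (if i ≠ j then g j else 0) + (if j = i then g j else 0) := by
    intro j
    by_cases h1 : j = i
    · subst h1
      simp
    · have h2 : i ≠ j := fun h => h1 h.symm
      simp [h1, h2]
  have hs : ∑ j, g j = ∑ j, ((if i ≠ j then g j else 0) + (if j = i then g j else 0)) :=
    Finset.sum_congr rfl (fun j _ => h j)
  rw [Finset.sum_add_distrib, Finset.sum_ite_eq'] at hs
  simp only [Finset.mem_univ, if_true] at hs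
  linarith

/-- The real-number core of the regrouping inequality. -/
theorem regroup_real {n : ℕ} (hn : 3 ≤ n) (F Q C : ℝ) (zz ww A B : Fin n → Fin n → ℝ)
    (D : Fin n → Fin n → Fin n → ℝ)
    (hD : ∀ i j, ∑ l, D i j l = 0)
    (hDi : ∀ i j, D i j i = A i j) (hDj : ∀ i j, D i j j = B i j)
    (hzz : ∑ i, ∑ j, zz i j = 0) (hzd : ∑ i, zz i i = F)
    (hww : ∑ i, ∑ j, ww i j = Q) (hwd : ∀ i, ww i i = 0)
    (hA : ∑ i, ∑ j, A i j = -F) (hAd : ∀ i, A i i = 0)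
    (hB : ∑ i, ∑ j, B i j = F) (hBd : ∀ i, B i i = 0)
    (hkey : ∀ i j, 2 * (n : ℝ) * (B i j - A i j)
      ≤ zz i i - 2 * zz i j + zz j j + (n : ℝ) ^ 2 * ww i j)
    (H : ∀ i j l : Fin n, i ≠ j → l ≠ i → l ≠ j →
      F + 2 * zz i j + 2 * ww i j - 2 * A i j - 2 * B i j + 2 * D i j l ≤ C) :
    ((n : ℝ) ^ 2 * ((n : ℝ) - 1) - 2 * (n : ℝ) + 4) * F ≤ (n : ℝ) ^ 2 * ((n : ℝ) - 1) * C := by
  have hn3 : (3 : ℝ) ≤ n := by exact_mod_cast hn
  have hnpos : (0 : ℝ) < n := by linarith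
  have hcard : ∀ c : ℝ, ∑ _l : Fin n, c = (n : ℝ) * c := by
    intro c
    rw [Finset.sum_const, Finset.card_univ, Fintype.card_fin, nsmul_eq_mul]
  -- the diagonal sums
  have s1 : ∑ i : Fin n, ∑ _j : Fin n, zz i i = (n : ℝ) * F := by
    rw [← hzd, Finset.mul_sum]
    exact Finset.sum_congr rfl (fun i _ => hcard _)
  have s2 : ∑ _i : Fin n, ∑ j : Fin n, zz j j = (n : ℝ) * F := by
    rw [hzd, hcard]
  -- `2 F ≤ n Q`
  have hFQ : 2 * F ≤ (n : ℝ) * Q := by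
    have hs : ∑ i, ∑ j, (2 * (n : ℝ) * (B i j - A i j))
        ≤ ∑ i, ∑ j, (zz i i - 2 * zz i j + zz j j + (n : ℝ) ^ 2 * ww i j) :=
      Finset.sum_le_sum fun i _ => Finset.sum_le_sum fun j _ => hkey i j
    have e1 : ∑ i, ∑ j, (2 * (n : ℝ) * (B i j - A i j)) = 2 * (n : ℝ) * (F - -F) := by
      simp only [← Finset.mul_sum, Finset.sum_sub_distrib, hA, hB]
    have e2 : ∑ i, ∑ j, (zz i i - 2 * zz i j + zz j j + (n : ℝ) ^ 2 * ww i j)
        = (n : ℝ) * F - 2 * 0 + (n : ℝ) * F + (n : ℝ) ^ 2 * Q := by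
      simp only [Finset.sum_add_distrib, Finset.sum_sub_distrib, ← Finset.mul_sum]
      rw [s1, s2, hzz, hww]
    rw [e1, e2] at hs
    have h4 : (n : ℝ) * (2 * F) ≤ (n : ℝ) * ((n : ℝ) * Q) := by nlinarith
    exact le_of_mul_le_mul_left h4 hnpos
  -- step 1: sum over the third index
  have step1 : ∀ i j : Fin n, i ≠ j →
      ((n : ℝ) - 2) * (F + 2 * zz i j + 2 * ww i j - 2 * A i j - 2 * B i j)
        - 2 * A i j - 2 * B i j ≤ ((n : ℝ) - 2) * C := by
    intro i j hij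
    have hsum : ∑ l, (if l ≠ i ∧ l ≠ j then
        (F + 2 * zz i j + 2 * ww i j - 2 * A i j - 2 * B i j + 2 * D i j l) else 0)
        ≤ ∑ l, (if l ≠ i ∧ l ≠ j then C else 0) := by
      refine Finset.sum_le_sum fun l _ => ?_
      by_cases h : l ≠ i ∧ l ≠ j
      · rw [if_pos h, if_pos h]
        exact H i j l hij h.1 h.2
      · rw [if_neg h, if_neg h]
    rw [sum_ite_ne_ne hij, sum_ite_ne_ne hij, Finset.sum_add_distrib, hcard, hcard,
      ← Finset.mul_sum, hD, hDi, hDj] at hsum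
    linarith
  -- step 2: sum over the ordered pairs of distinct indices
  have step2 : ∑ i, ∑ j, (if i ≠ j then
      (((n : ℝ) - 2) * (F + 2 * zz i j + 2 * ww i j - 2 * A i j - 2 * B i j)
        - 2 * A i j - 2 * B i j) else 0)
      ≤ ∑ i : Fin n, ∑ j : Fin n, (if i ≠ j then ((n : ℝ) - 2) * C else 0) := by
    refine Finset.sum_le_sum fun i _ => Finset.sum_le_sum fun j _ => ?_
    by_cases h : i ≠ j
    · rw [if_pos h, if_pos h]
      exact step1 i j h
    · rw [if_neg h, if_neg h]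
  have eL : ∑ i, ∑ j, (if i ≠ j then
      (((n : ℝ) - 2) * (F + 2 * zz i j + 2 * ww i j - 2 * A i j - 2 * B i j)
        - 2 * A i j - 2 * B i j) else 0)
      = ((n : ℝ) - 2) * ((n : ℝ) * ((n : ℝ) * F) + 2 * 0 + 2 * Q - 2 * -F - 2 * F)
          - 2 * -F - 2 * F
        - (((n : ℝ) - 2) * ((n : ℝ) * F + 2 * F)) := by
    have e1 : ∀ i : Fin n, ∑ j, (if i ≠ j then
        (((n : ℝ) - 2) * (F + 2 * zz i j + 2 * ww i j - 2 * A i j - 2 * B i j)
          - 2 * A i j - 2 * B i j) else 0)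
        = (((n : ℝ) - 2) * ((n : ℝ) * F + 2 * ∑ j, zz i j + 2 * ∑ j, ww i j
            - 2 * ∑ j, A i j - 2 * ∑ j, B i j) - 2 * ∑ j, A i j - 2 * ∑ j, B i j)
          - ((n : ℝ) - 2) * (F + 2 * zz i i) := by
      intro i
      rw [sum_ite_ne i, hwd, hAd, hBd]
      simp only [Finset.sum_sub_distrib, Finset.sum_add_distrib, ← Finset.mul_sum, hcard]
      ring
    rw [Finset.sum_congr rfl (fun i _ => e1 i)]
    simp only [Finset.sum_sub_distrib, Finset.sum_add_distrib, ← Finset.mul_sum, hcard,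
      hzz, hww, hA, hB, hzd]
  have eR : ∑ i : Fin n, ∑ j : Fin n, (if i ≠ j then ((n : ℝ) - 2) * C else 0)
      = (n : ℝ) * ((n : ℝ) * (((n : ℝ) - 2) * C) - ((n : ℝ) - 2) * C) := by
    have e1 : ∀ i : Fin n, ∑ j : Fin n, (if i ≠ j then ((n : ℝ) - 2) * C else 0)
        = (n : ℝ) * (((n : ℝ) - 2) * C) - ((n : ℝ) - 2) * C := by
      intro i
      rw [sum_ite_ne i (fun _ => ((n : ℝ) - 2) * C), hcard]
    rw [Finset.sum_congr rfl (fun i _ => e1 i), hcard]
  rw [eL, eR] at step2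
  -- divide by `n - 2`
  have h2 : (0 : ℝ) < (n : ℝ) - 2 := by linarith
  have hX : ((n : ℝ) ^ 2 - (n : ℝ) - 2) * F + 2 * Q ≤ (n : ℝ) * ((n : ℝ) - 1) * C := by
    have h5 : ((n : ℝ) - 2) * (((n : ℝ) ^ 2 - (n : ℝ) - 2) * F + 2 * Q)
        ≤ ((n : ℝ) - 2) * ((n : ℝ) * ((n : ℝ) - 1) * C) := by nlinarith
    exact le_of_mul_le_mul_left h5 h2
  have hnX := mul_le_mul_of_nonneg_left hX hnpos.le
  nlinarith

/-- A vector equal to its negative is zero. -/
theorem eq_zero_of_eq_neg {V : Type*} [NormedAddCommGroup V] [InnerProductSpace ℝ V] {x : V}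
    (h : x = -x) : x = 0 := by
  have h2 : (2 : ℝ) • x = 0 := by
    rw [two_smul]
    nth_rewrite 1 [h]
    exact neg_add_cancel x
  rcases smul_eq_zero.1 h2 with h3 | h3
  · norm_num at h3
  · exact h3

/-- **The regrouping inequality.** -/
theorem regroup_alg {V : Type*} [NormedAddCommGroup V] [InnerProductSpace ℝ V] {n : ℕ} (hn : 3 ≤ n)
    (w : Fin n → Fin n → V) (anti : ∀ i j, w j i = -w i j) (C : ℝ)
    (H : ∀ i j l : Fin n, i ≠ j → l ≠ i → l ≠ j →
      (∑ m, ‖∑ a, w m a‖ ^ 2) - ‖∑ a, w i a‖ ^ 2 - ‖∑ a, w j a‖ ^ 2 - ‖∑ a, w l a‖ ^ 2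
        + ‖(∑ a, w i a) + (∑ a, w j a) - w j i‖ ^ 2 + ‖(∑ a, w l a) + w j i‖ ^ 2 ≤ C) :
    ((n : ℝ) ^ 2 * ((n : ℝ) - 1) - 2 * (n : ℝ) + 4) * ∑ m, ‖∑ a, w m a‖ ^ 2
      ≤ (n : ℝ) ^ 2 * ((n : ℝ) - 1) * C := by
  obtain ⟨z, hz⟩ : ∃ z : Fin n → V, ∀ i, z i = ∑ a, w i a := ⟨fun i => ∑ a, w i a, fun _ => rfl⟩
  simp only [← hz] at H ⊢
  have hdiag : ∀ i, w i i = 0 := fun i => eq_zero_of_eq_neg (anti i i)
  have hcol : ∀ j, ∑ i, w i j = -z j := by
    intro j
    rw [hz j, ← Finset.sum_neg_distrib]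
    exact Finset.sum_congr rfl (fun i _ => anti j i)
  have hzsum : ∑ i, z i = 0 := by
    have h1 : ∑ i, z i = ∑ a, ∑ i, w i a := by
      rw [Finset.sum_comm]
      exact Finset.sum_congr rfl (fun i _ => hz i)
    have h2 : ∑ a, ∑ i, w i a = -∑ a, z a := by
      rw [← Finset.sum_neg_distrib]
      exact Finset.sum_congr rfl (fun a _ => hcol a)
    exact eq_zero_of_eq_neg (h1.trans h2)
  have gD : ∀ i j : Fin n, ∑ l, inner ℝ (z l) (w j i) = 0 := by
    intro i j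
    rw [← sum_inner, hzsum, inner_zero_left]
  have gzz : ∑ i, ∑ j, inner ℝ (z i) (z j) = 0 := by
    have e : ∀ i : Fin n, ∑ j, inner ℝ (z i) (z j) = 0 := by
      intro i
      rw [← inner_sum, hzsum, inner_zero_right]
    rw [Finset.sum_congr rfl (fun i _ => e i), Finset.sum_const_zero]
  have gzd : ∑ i, inner ℝ (z i) (z i) = ∑ m, ‖z m‖ ^ 2 :=
    Finset.sum_congr rfl (fun i _ => real_inner_self_eq_norm_sq (z i))
  have gwd : ∀ i : Fin n, ‖w i i‖ ^ 2 = 0 := by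
    intro i
    rw [hdiag i, norm_zero]
    norm_num
  have gA : ∑ i, ∑ j, inner ℝ (z i) (w j i) = -∑ m, ‖z m‖ ^ 2 := by
    have e : ∀ i : Fin n, ∑ j, inner ℝ (z i) (w j i) = -‖z i‖ ^ 2 := by
      intro i
      rw [← inner_sum, hcol i, inner_neg_right, real_inner_self_eq_norm_sq]
    rw [Finset.sum_congr rfl (fun i _ => e i), Finset.sum_neg_distrib]
  have gAd : ∀ i : Fin n, inner ℝ (z i) (w i i) = 0 := by
    intro i
    rw [hdiag i, inner_zero_right]
  have gB : ∑ i, ∑ j, inner ℝ (z j) (w j i) = ∑ m, ‖z m‖ ^ 2 := by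
    rw [Finset.sum_comm]
    have e : ∀ j : Fin n, ∑ i, inner ℝ (z j) (w j i) = ‖z j‖ ^ 2 := by
      intro j
      rw [← inner_sum, ← hz j, real_inner_self_eq_norm_sq]
    exact Finset.sum_congr rfl (fun j _ => e j)
  have gkey : ∀ i j : Fin n, 2 * (n : ℝ) * (inner ℝ (z j) (w j i) - inner ℝ (z i) (w j i))
      ≤ inner ℝ (z i) (z i) - 2 * inner ℝ (z i) (z j) + inner ℝ (z j) (z j)
        + (n : ℝ) ^ 2 * ‖w j i‖ ^ 2 := by
    intro i j
    have h1 : inner ℝ (z j - z i) (w j i) ≤ ‖z j - z i‖ * ‖w j i‖ := real_inner_le_norm _ _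
    have h2 : ‖z j - z i‖ ^ 2 = ‖z j‖ ^ 2 - 2 * inner ℝ (z j) (z i) + ‖z i‖ ^ 2 :=
      norm_sub_sq_real _ _
    rw [inner_sub_left] at h1
    rw [real_inner_comm (z i) (z j)] at h2
    rw [real_inner_self_eq_norm_sq, real_inner_self_eq_norm_sq]
    have hn0 : (0 : ℝ) ≤ n := Nat.cast_nonneg n
    have h3 : 2 * (n : ℝ) * (‖z j - z i‖ * ‖w j i‖)
        ≤ ‖z j - z i‖ ^ 2 + (n : ℝ) ^ 2 * ‖w j i‖ ^ 2 := by
      nlinarith [sq_nonneg (‖z j - z i‖ - (n : ℝ) * ‖w j i‖)]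
    have h4 : 2 * (n : ℝ) * (inner ℝ (z j) (w j i) - inner ℝ (z i) (w j i))
        ≤ 2 * (n : ℝ) * (‖z j - z i‖ * ‖w j i‖) :=
      mul_le_mul_of_nonneg_left h1 (by positivity)
    linarith
  have gH : ∀ i j l : Fin n, i ≠ j → l ≠ i → l ≠ j →
      (∑ m, ‖z m‖ ^ 2) + 2 * inner ℝ (z i) (z j) + 2 * ‖w j i‖ ^ 2 - 2 * inner ℝ (z i) (w j i)
        - 2 * inner ℝ (z j) (w j i) + 2 * inner ℝ (z l) (w j i) ≤ C := by
    intro i j l hij hli hlj
    have h := H i j l hij hli hlj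
    rw [norm_sub_sq_real (z i + z j) (w j i), norm_add_sq_real (z i) (z j),
      norm_add_sq_real (z l) (w j i), inner_add_left] at h
    linarith
  exact regroup_real hn (∑ m, ‖z m‖ ^ 2) (∑ i, ∑ j, ‖w j i‖ ^ 2) C
    (fun i j => inner ℝ (z i) (z j)) (fun i j => ‖w j i‖ ^ 2)
    (fun i j => inner ℝ (z i) (w j i)) (fun i j => inner ℝ (z j) (w j i))
    (fun i j l => inner ℝ (z l) (w j i)) gD (fun _ _ => rfl) (fun _ _ => rfl) gzz gzd rfl gwd
    gA gAd gB gAd gkey gH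

end Vale.Agent.Lib.P226.H45
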